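import Vale.Agent.Lib.P174.HeightProof

/-!
# P174: height-dominant systems of equations are solvable over every group

`G` is an arbitrary group and `θ : G → ℝ` an additive character.  A system is given by words in
the letters `g * x_j` and `g * x_j⁻¹`.  Heights: `g` counts `θ g`, `x_j` counts `τ j`.  If every
equation has total height `0` and has a dominant positive pivot occurrence (with respect to the
weighted levels `level + σ j`), pivots of distinct equations being distinct unknowns, then the
system is solvable over `G`.
-/

open Monoid

universe u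

namespace Vale.Agent.Results.P174.HeightDominant

open Vale.Agent.Lib.P174

theorem result (G : Type u) [Group G] (m n : ℕ) (L : Fin m → List (G × Fin n × Bool))
    (θ : G → ℝ) (hθ : ∀ a b, θ (a * b) = θ a + θ b) (τ σ : Fin n → ℝ)
    (π : Fin m → Fin n) (μ : Fin m → ℝ) (hπ : Function.Injective π)
    (hbal : ∀ i, endHeight θ τ 0 (L i) = 0)
    (htop : ∀ i, (π i, μ i, true) ∈ occ θ τ 0 (L i))
    (hdom : ∀ i, ∀ o ∈ occ θ τ 0 (L i),
      o = (π i, μ i, true) ∨ o.2.1 + σ o.1 < μ i + σ (π i)) :
    SolvableOver (fun i => wordVal (L i)) :=
  height_dominant L θ hθ τ σ π μ hbal ⟨hπ, htop, hdom⟩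

end Vale.Agent.Results.P174.HeightDominant
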