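import Mathlib

/-!
# P174: triangular positive systems of equations are solvable over every group

A system `w_0, ..., w_{m-1}` in `G * F_n` (`m ≤ n`) is *triangular positive* when the `i`-th
equation is a product of coefficients from `G`, of letters `x_j` and their inverses with `j < i`
or `m ≤ j`, and of the letter `x_i` itself (no inverse of `x_i`), and `x_i` really occurs.
Such a system is nonsingular, and we show that it is solvable over `G`, for every group `G`.
The one-unknown step is the wreath-product argument for positive equations.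
-/

open Monoid

universe u

namespace Vale.Agent.Results.P174.TriangularPositive

/-- The exponent-sum homomorphism `G * F_n → ℤ^n` (target written multiplicatively): it kills `G`
and sends the `j`-th unknown to the `j`-th basis vector. -/
def expHom (G : Type u) [Group G] (n : ℕ) :
    Coprod G (FreeGroup (Fin n)) →* Multiplicative (Fin n → ℤ) :=
  Coprod.lift 1 (FreeGroup.lift fun j => Multiplicative.ofAdd (Pi.single j 1))

/-- The exponent-sum matrix of a system, with entries read in `ℚ`. -/
def expMatrix {G : Type u} [Group G] {m n : ℕ} (w : Fin m → Coprod G (FreeGroup (Fin n))) :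
    Matrix (Fin m) (Fin n) ℚ :=
  Matrix.of fun i j => ((Multiplicative.toAdd (expHom G n (w i)) j : ℤ) : ℚ)

/-- Nonsingular: the exponent-sum matrix has rank `m` over `ℚ`. -/
def Nonsingular {G : Type u} [Group G] {m n : ℕ} (w : Fin m → Coprod G (FreeGroup (Fin n))) :
    Prop :=
  (expMatrix w).rank = m

/-- Solvable over `G`: the canonical map `G → (G * F_n) / ⟨⟨w⟩⟩` is injective. -/
def SolvableOver {G : Type u} [Group G] {m n : ℕ} (w : Fin m → Coprod G (FreeGroup (Fin n))) :
    Prop :=
  Function.Injective fun g : G =>
    (QuotientGroup.mk (Coprod.inl g) :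
      Coprod G (FreeGroup (Fin n)) ⧸ Subgroup.normalClosure (Set.range w))

/-- Letters allowed in the `i`-th equation of a triangular positive system: coefficients from `G`,
the unknowns `x_j` and their inverses for `j < i` or `m ≤ j`, and the unknown `x_i` (not its
inverse). -/
def allowed (G : Type u) [Group G] {m n : ℕ} (hmn : m ≤ n) (i : Fin m) :
    Set (Coprod G (FreeGroup (Fin n))) :=
  {z | (∃ g : G, z = Coprod.inl g) ∨
    (∃ j : Fin n, (j.val < i.val ∨ m ≤ j.val) ∧
      (z = Coprod.inr (FreeGroup.of j) ∨ z = (Coprod.inr (FreeGroup.of j))⁻¹)) ∨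
    z = Coprod.inr (FreeGroup.of (Fin.castLE hmn i))}

theorem palin {H : Type*} [Group H] : ∀ (N : ℕ) (α : ℕ → H),
    ((List.range N).map (fun j => α j * (α (N - 1 - j))⁻¹)).prod = 1
  | 0, _ => by simp
  | 1, _ => by simp
  | (N + 2), α => by
    have ih := palin N (fun x => α (x + 1))
    rw [List.range_succ_eq_map, List.range_succ]
    simp only [List.map_cons, List.map_map, List.map_append, List.prod_cons, List.prod_append,
      List.map_nil, List.prod_nil, mul_one]
    have hmid : List.map ((fun j => α j * (α (N + 2 - 1 - j))⁻¹) ∘ Nat.succ) (List.range N)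
        = List.map (fun j => α (j + 1) * (α (N - 1 - j + 1))⁻¹) (List.range N) := by
      apply List.map_congr_left
      intro j hj
      have hj' : j < N := List.mem_range.mp hj
      have : N + 2 - 1 - (j + 1) = N - 1 - j + 1 := by omega
      simp only [Function.comp, Nat.succ_eq_add_one, this]
    rw [hmid, ih]
    simp

theorem palin_cyc {H : Type*} [Group H] (c v : ℕ) (hv : v ≤ c) (α : ℕ → H) :
    ((List.range c).map (fun j => α j * (α ((v + (c - 1 - j)) % c))⁻¹)).prod = 1 := by
  obtain ⟨d, rfl⟩ := Nat.exists_eq_add_of_le hv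
  rw [List.range_add, List.map_append, List.prod_append, List.map_map]
  have h1 : List.map (fun j => α j * (α ((v + (v + d - 1 - j)) % (v + d)))⁻¹) (List.range v)
      = List.map (fun j => α j * (α (v - 1 - j))⁻¹) (List.range v) := by
    apply List.map_congr_left
    intro j hj
    have hj' : j < v := List.mem_range.mp hj
    have e : v + (v + d - 1 - j) = (v + d) + (v - 1 - j) := by omega
    rw [e, Nat.add_mod_left, Nat.mod_eq_of_lt (by omega)]
  have h2 : List.map ((fun j => α j * (α ((v + (v + d - 1 - j)) % (v + d)))⁻¹) ∘ fun x => v + x)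
        (List.range d)
      = List.map (fun j => (fun x => α (v + x)) j * ((fun x => α (v + x)) (d - 1 - j))⁻¹)
        (List.range d) := by
    apply List.map_congr_left
    intro j hj
    have hj' : j < d := List.mem_range.mp hj
    have e : v + (v + d - 1 - (v + j)) = v + (d - 1 - j) := by omega
    simp only [Function.comp]
    rw [e, Nat.mod_eq_of_lt (by omega)]
  rw [h1, h2, palin, palin, one_mul]

/-- Left translation on the second coordinate of `ZMod c × H`. -/
def diagPerm (c : ℕ) (H : Type u) [Group H] : H →* Equiv.Perm (ZMod c × H) where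
  toFun a := Equiv.prodCongr (Equiv.refl _) (Equiv.mulLeft a)
  map_one' := by ext x <;> simp
  map_mul' a b := by ext x <;> simp [mul_assoc]

/-- The twisted shift of `ZMod c × H`. -/
def shiftPerm (c : ℕ) {H : Type u} [Group H] (f : ZMod c → H) : Equiv.Perm (ZMod c × H) where
  toFun x := (x.1 + 1, f x.1 * x.2)
  invFun x := (x.1 - 1, (f (x.1 - 1))⁻¹ * x.2)
  left_inv x := by simp
  right_inv x := by simp

theorem eval_word (c : ℕ) {H : Type u} [Group H] (f : ZMod c → H) (α : ℕ → H) :
    ∀ (k : ℕ) (i : ZMod c) (h : H),
      ((List.range k).map (fun j => diagPerm c H (α j) * shiftPerm c f)).prod (i, h)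
        = (i + k, ((List.range k).map
            (fun j => α j * f (i + ((k - 1 - j : ℕ) : ZMod c)))).prod * h)
  | 0, i, h => by simp
  | (k + 1), i, h => by
    rw [List.range_succ, List.map_append, List.prod_append, List.map_append, List.prod_append]
    simp only [List.map_cons, List.map_nil, List.prod_cons, List.prod_nil, mul_one,
      Equiv.Perm.mul_apply]
    have e1 : (diagPerm c H (α k)) ((shiftPerm c f) (i, h)) = (i + 1, α k * f i * h) := by
      simp [diagPerm, shiftPerm, mul_assoc]
    rw [e1, eval_word c f α k (i + 1) (α k * f i * h)]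
    have hmid : List.map (fun j => α j * f (i + 1 + ((k - 1 - j : ℕ) : ZMod c))) (List.range k)
        = List.map (fun j => α j * f (i + ((k + 1 - 1 - j : ℕ) : ZMod c))) (List.range k) := by
      apply List.map_congr_left
      intro j hj
      have hj' : j < k := List.mem_range.mp hj
      have : k + 1 - 1 - j = (k - 1 - j) + 1 := by omega
      rw [this]
      push_cast
      ring_nf
    rw [hmid]
    ext
    · simp; ring
    · simp [mul_assoc]

theorem levin_core {H : Type u} [Group H] (c : ℕ) (hc : c ≠ 0) (α : ℕ → H) :
    ∃ (H' : Type u) (_ : Group H') (φ : H →* H') (t : H'), Function.Injective φ ∧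
      ((List.range c).map (fun j => φ (α j) * t)).prod = 1 := by
  have : NeZero c := ⟨hc⟩
  refine ⟨Equiv.Perm (ZMod c × H), inferInstance, diagPerm c H,
    shiftPerm c (fun b => (α b.val)⁻¹), ?_, ?_⟩
  · intro a b hab
    have := congrArg (fun p : Equiv.Perm (ZMod c × H) => (p (0, 1)).2) hab
    simpa [diagPerm] using this
  · ext ⟨i, h⟩
    · rw [eval_word]; simp
    · rw [eval_word]
      have : List.map (fun j => α j * (α (i + ((c - 1 - j : ℕ) : ZMod c)).val)⁻¹) (List.range c)
          = List.map (fun j => α j * (α ((i.val + (c - 1 - j)) % c))⁻¹) (List.range c) := by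
        apply List.map_congr_left
        intro j hj
        rw [ZMod.val_add, ZMod.val_natCast, Nat.add_mod_mod]
      simp only [this]
      rw [palin_cyc c i.val (ZMod.val_lt i).le]
      simp

theorem levin_list {H : Type u} [Group H] (L : List H) (hL : L ≠ []) (b : H) :
    ∃ (H' : Type u) (_ : Group H') (φ : H →* H') (t : H'), Function.Injective φ ∧
      (L.map (fun a => φ a * t)).prod * φ b = 1 := by
  obtain ⟨a0, L', rfl⟩ := List.exists_cons_of_ne_nil hL
  obtain ⟨H', gH', φ, t, hφ, hprod⟩ := levin_core (H := H) ((b * a0) :: L').length (by simp)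
    (fun j => ((b * a0) :: L').getD j 1)
  refine ⟨H', gH', φ, t, hφ, ?_⟩
  have hlist : (List.range ((b * a0) :: L').length).map (fun j => ((b * a0) :: L').getD j 1)
      = (b * a0) :: L' := by
    apply List.ext_getElem
    · simp
    · intro i h1 h2
      simp only [List.getElem_map, List.getElem_range]
      rw [List.getD_eq_getElem _ _ h2]
  have h2 : (((b * a0) :: L').map (fun a => φ a * t)).prod = 1 := by
    rw [← hprod]
    conv_lhs => rw [← hlist]
    rw [List.map_map]
    rfl
  simp only [List.map_cons, List.prod_cons, map_mul] at h2 ⊢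
  have h3 : φ a0 * t * (List.map (fun a => φ a * t) L').prod = (φ b)⁻¹ := by
    apply eq_inv_of_mul_eq_one_right
    rw [← h2]
    simp only [mul_assoc]
  rw [h3]; simp

variable {G : Type u} [Group G] {m n : ℕ}

theorem solvable_of_solution (w : Fin m → Coprod G (FreeGroup (Fin n)))
    {H : Type u} [Group H] (ι : G →* H) (hι : Function.Injective ι) (h : Fin n → H)
    (hw : ∀ i, Coprod.lift ι (FreeGroup.lift h) (w i) = 1) : SolvableOver w := by
  intro g g' hgg
  have hle : Subgroup.normalClosure (Set.range w) ≤ (Coprod.lift ι (FreeGroup.lift h)).ker := by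
    apply Subgroup.normalClosure_le_normal
    rintro _ ⟨i, rfl⟩
    exact hw i
  have h1 : (Coprod.inl g : Coprod G (FreeGroup (Fin n)))⁻¹ * Coprod.inl g' ∈
      Subgroup.normalClosure (Set.range w) := QuotientGroup.eq.mp hgg
  have h2 := hle h1
  rw [MonoidHom.mem_ker] at h2
  simp only [map_mul, map_inv, Coprod.lift_apply_inl] at h2
  apply hι
  exact inv_mul_eq_one.mp h2

/-- The assignment that transports `h` along `φ` and gives the unknown `p` the value `t`. -/
def upd {H H' : Type u} [Group H] [Group H'] (h : Fin n → H) (p : Fin n) (φ : H →* H') (t : H') :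
    Fin n → H' := fun j => if j = p then t else φ (h j)

theorem eval_indep (hmn : m ≤ n) {H : Type u} [Group H] (ι : G →* H) (h : Fin n → H)
    (k : Fin m) (i : Fin m) (hik : i.val < k.val)
    {H' : Type u} [Group H'] (φ : H →* H') (t : H')
    (z : Coprod G (FreeGroup (Fin n))) (hz : z ∈ Submonoid.closure (allowed G hmn i)) :
    Coprod.lift (φ.comp ι) (FreeGroup.lift (upd h (Fin.castLE hmn k) φ t)) z
      = φ (Coprod.lift ι (FreeGroup.lift h) z) := by
  induction hz using Submonoid.closure_induction with
  | mem x hx =>
    rcases hx with ⟨g, rfl⟩ | ⟨j, hj, rfl | rfl⟩ | rfl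
    · simp
    · have : j ≠ Fin.castLE hmn k := by
        intro e
        have := congrArg Fin.val e
        simp at this
        have := k.isLt
        omega
      simp [upd, this]
    · have : j ≠ Fin.castLE hmn k := by
        intro e
        have := congrArg Fin.val e
        simp at this
        have := k.isLt
        omega
      simp [upd, this]
    · have : Fin.castLE hmn i ≠ Fin.castLE hmn k := by
        intro e
        have := congrArg Fin.val e
        simp at this
        omega
      simp [upd, this]
  | one => simp
  | mul x y _ _ hx hy => simp [hx, hy]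

theorem eval_pivot (hmn : m ≤ n) {H : Type u} [Group H] (ι : G →* H) (h : Fin n → H)
    (k : Fin m) (z : Coprod G (FreeGroup (Fin n)))
    (hz : z ∈ Submonoid.closure (allowed G hmn k)) :
    ∃ (L : List H) (b : H),
      (∀ (H' : Type u) [Group H'] (φ : H →* H') (t : H'),
        Coprod.lift (φ.comp ι) (FreeGroup.lift (upd h (Fin.castLE hmn k) φ t)) z
          = (L.map (fun a => φ a * t)).prod * φ b) ∧
      Multiplicative.toAdd (expHom G n z) (Fin.castLE hmn k) = (L.length : ℤ) := by
  induction hz using Submonoid.closure_induction with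
  | mem x hx =>
    rcases hx with ⟨g, rfl⟩ | ⟨j, hj, rfl | rfl⟩ | rfl
    · exact ⟨[], ι g, by intros; simp, by simp [expHom]⟩
    · have hne : j ≠ Fin.castLE hmn k := by
        intro e
        have := congrArg Fin.val e
        simp at this
        have := k.isLt
        omega
      exact ⟨[], h j, by intros; simp [upd, hne], by simp [expHom, hne.symm]⟩
    · have hne : j ≠ Fin.castLE hmn k := by
        intro e
        have := congrArg Fin.val e
        simp at this
        have := k.isLt
        omega
      exact ⟨[], (h j)⁻¹, by intros; simp [upd, hne], by simp [expHom, hne.symm]⟩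
    · exact ⟨[1], 1, by intros; simp [upd], by simp [expHom]⟩
  | one => exact ⟨[], 1, by intros; simp, by simp⟩
  | mul x y _ _ hx hy =>
    obtain ⟨L1, b1, h1, e1⟩ := hx
    obtain ⟨L2, b2, h2, e2⟩ := hy
    cases L2 with
    | nil =>
      refine ⟨L1, b1 * b2, ?_, ?_⟩
      · intro H' _ φ t
        rw [map_mul, h1, h2]
        simp [mul_assoc]
      · rw [map_mul, toAdd_mul, Pi.add_apply, e1, e2]; simp
    | cons a0 L2' =>
      refine ⟨L1 ++ (b1 * a0) :: L2', b2, ?_, ?_⟩
      · intro H' _ φ t
        rw [map_mul, h1, h2]
        simp [mul_assoc]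
      · rw [map_mul, toAdd_mul, Pi.add_apply, e1, e2]; simp

theorem stage_solution (hmn : m ≤ n) (w : Fin m → Coprod G (FreeGroup (Fin n)))
    (htri : ∀ i, w i ∈ Submonoid.closure (allowed G hmn i))
    (hocc : ∀ i, Multiplicative.toAdd (expHom G n (w i)) (Fin.castLE hmn i) ≠ 0) :
    ∀ k : ℕ, k ≤ m → ∃ (H : Type u) (_ : Group H) (ι : G →* H) (h : Fin n → H),
      Function.Injective ι ∧ ∀ i : Fin m, i.val < k → Coprod.lift ι (FreeGroup.lift h) (w i) = 1
  | 0, _ => ⟨G, inferInstance, MonoidHom.id G, fun _ => 1, Function.injective_id,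
      fun i hi => absurd hi (Nat.not_lt_zero _)⟩
  | (k + 1), hk => by
    obtain ⟨H, gH, ι, h, hι, hsol⟩ := stage_solution hmn w htri hocc k (by omega)
    obtain ⟨L, b, hev, hlen⟩ := eval_pivot hmn ι h ⟨k, by omega⟩ (w ⟨k, by omega⟩) (htri _)
    have hL : L ≠ [] := by
      rintro rfl
      exact hocc ⟨k, by omega⟩ (by simpa using hlen)
    obtain ⟨H', gH', φ, t, hφ, hprod⟩ := levin_list L hL b
    refine ⟨H', gH', φ.comp ι, upd h (Fin.castLE hmn ⟨k, by omega⟩) φ t, hφ.comp hι, ?_⟩
    intro i hi
    rcases Nat.lt_succ_iff_lt_or_eq.mp hi with hlt | heq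
    · rw [eval_indep hmn ι h ⟨k, by omega⟩ i hlt φ t (w i) (htri i), hsol i hlt, map_one]
    · have : i = ⟨k, by omega⟩ := Fin.ext heq
      rw [this, hev H' φ t, hprod]

theorem exp_zero_above (hmn : m ≤ n) (i j : Fin m) (hij : i < j)
    (z : Coprod G (FreeGroup (Fin n))) (hz : z ∈ Submonoid.closure (allowed G hmn i)) :
    Multiplicative.toAdd (expHom G n z) (Fin.castLE hmn j) = 0 := by
  induction hz using Submonoid.closure_induction with
  | mem x hx =>
    rcases hx with ⟨g, rfl⟩ | ⟨l, hl, rfl | rfl⟩ | rfl
    · simp [expHom]
    · have hne : l ≠ Fin.castLE hmn j := by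
        intro e
        have := congrArg Fin.val e
        simp at this
        have := j.isLt
        have : i.val < j.val := hij
        omega
      simp [expHom, hne.symm]
    · have hne : l ≠ Fin.castLE hmn j := by
        intro e
        have := congrArg Fin.val e
        simp at this
        have := j.isLt
        have : i.val < j.val := hij
        omega
      simp [expHom, hne.symm]
    · have hne : Fin.castLE hmn i ≠ Fin.castLE hmn j := by
        intro e
        have := congrArg Fin.val e
        simp at this
        have : i.val < j.val := hij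
        omega
      simp [expHom, hne.symm]
  | one => simp
  | mul x y _ _ hx hy => rw [map_mul, toAdd_mul, Pi.add_apply, hx, hy, add_zero]

theorem nonsingular_of_triangular (hmn : m ≤ n) (w : Fin m → Coprod G (FreeGroup (Fin n)))
    (htri : ∀ i, w i ∈ Submonoid.closure (allowed G hmn i))
    (hocc : ∀ i, Multiplicative.toAdd (expHom G n (w i)) (Fin.castLE hmn i) ≠ 0) :
    Nonsingular w := by
  unfold Nonsingular
  have hdet : ((expMatrix w).submatrix id (Fin.castLE hmn)).det ≠ 0 := by
    rw [Matrix.det_of_isLowerTriangular]
    · rw [Finset.prod_ne_zero_iff]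
      intro i _
      simp only [Matrix.submatrix_apply, id, expMatrix, Matrix.of_apply]
      exact_mod_cast hocc i
    · intro i j hij
      simp only [Matrix.submatrix_apply, id, expMatrix, Matrix.of_apply]
      have : i < j := hij
      rw [exp_zero_above hmn i j this (w i) (htri i)]
      simp
  have hli := Matrix.linearIndependent_rows_of_det_ne_zero hdet
  have hli2 : LinearIndependent ℚ (expMatrix w).row := by
    apply LinearIndependent.of_comp (LinearMap.funLeft ℚ ℚ (Fin.castLE hmn))
    exact hli
  simpa using hli2.rank_matrix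

/-- **Triangular positive systems are nonsingular and solvable over every group.** -/
theorem result (G : Type u) [Group G] (m n : ℕ) (hmn : m ≤ n)
    (w : Fin m → Coprod G (FreeGroup (Fin n)))
    (htri : ∀ i, w i ∈ Submonoid.closure (allowed G hmn i))
    (hocc : ∀ i, Multiplicative.toAdd (expHom G n (w i)) (Fin.castLE hmn i) ≠ 0) :
    Nonsingular w ∧ SolvableOver w := by
  refine ⟨nonsingular_of_triangular hmn w htri hocc, ?_⟩
  obtain ⟨H, gH, ι, h, hι, hsol⟩ := stage_solution hmn w htri hocc m le_rfl
  exact solvable_of_solution w ι hι h (fun i => hsol i i.isLt)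

end Vale.Agent.Results.P174.TriangularPositive
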